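import Mathlib

/-!
Seymour's second neighbourhood conjecture, unweighted, from scratch
(294's simultaneous deletion (G), 787's telescoping proof of the gap inequality,
the inner / outer shift of 362 / 413 / 657 / 848).

A digraph is given by its closed out-neighbourhoods `N : V → Finset V`.
-/

namespace Vale.Agent.P038.H700

open Finset

variable {V : Type*} [Fintype V] [DecidableEq V]

/-- closed out-neighbourhood of a set -/
def Nb (N : V → Finset V) (S : Finset V) : Finset V := S.biUnion N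

/-- `N` is the family of closed out-neighbourhoods of an oriented graph -/
structure Ori (N : V → Finset V) : Prop where
  refl : ∀ v, v ∈ N v
  anti : ∀ x y, x ∈ N y → y ∈ N x → x = y

/-- counterexample: `|N2 v| < |N1 v|` for all `v` -/
def CE (N : V → Finset V) : Prop := Ori N ∧ ∀ v, (Nb N (N v)).card + 1 < 2 * (N v).card

/-- number of out-neighbours of the set `S` outside `S` -/
def h (N : V → Finset V) (S : Finset V) : ℕ := (Nb N S \ S).card

lemma mem_Nb {N : V → Finset V} {S : Finset V} {x : V} : x ∈ Nb N S ↔ ∃ a ∈ S, x ∈ N a := by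
  simp [Nb]

lemma subset_Nb {N : V → Finset V} (hr : ∀ v, v ∈ N v) (S : Finset V) : S ⊆ Nb N S := by
  intro x hx
  exact mem_Nb.2 ⟨x, hx, hr x⟩

lemma Nb_mono {N : V → Finset V} {S T : Finset V} (hST : S ⊆ T) : Nb N S ⊆ Nb N T :=
  Finset.biUnion_subset_biUnion_of_subset_left N hST

lemma Nb_union {N : V → Finset V} (S T : Finset V) : Nb N (S ∪ T) = Nb N S ∪ Nb N T := by
  ext x
  simp only [mem_Nb, mem_union]
  constructor
  · rintro ⟨a, ha | ha, hx⟩
    · exact Or.inl ⟨a, ha, hx⟩
    · exact Or.inr ⟨a, ha, hx⟩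
  · rintro (⟨a, ha, hx⟩ | ⟨a, ha, hx⟩)
    · exact ⟨a, Or.inl ha, hx⟩
    · exact ⟨a, Or.inr ha, hx⟩

lemma card_Nb {N : V → Finset V} (hr : ∀ v, v ∈ N v) (S : Finset V) :
    (Nb N S).card = h N S + S.card :=
  (Finset.card_sdiff_add_card_eq_card (subset_Nb hr S)).symm

lemma h_submod {N : V → Finset V} (hr : ∀ v, v ∈ N v) (X Y : Finset V) :
    h N (X ∪ Y) + h N (X ∩ Y) ≤ h N X + h N Y := by
  have h1 := card_Nb hr (X ∪ Y)
  have h2 := card_Nb hr (X ∩ Y)
  have h3 := card_Nb hr X
  have h4 := card_Nb hr Y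
  have h5 := Finset.card_union_add_card_inter X Y
  have h6 := Finset.card_union_add_card_inter (Nb N X) (Nb N Y)
  have h7 : (Nb N (X ∩ Y)).card ≤ (Nb N X ∩ Nb N Y).card := by
    apply Finset.card_le_card
    exact Finset.subset_inter (Nb_mono Finset.inter_subset_left) (Nb_mono Finset.inter_subset_right)
  rw [Nb_union] at h1
  omega

/-- intersection of the rows `U a` over the closed in-neighbours `a` of `z` -/
def meet (N : V → Finset V) (U : V → Finset V) (z : V) : Finset V :=
  univ.filter (fun b => ∀ a, z ∈ N a → b ∈ U a)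

lemma mem_meet {N U : V → Finset V} {z b : V} : b ∈ meet N U z ↔ ∀ a, z ∈ N a → b ∈ U a := by
  simp [meet]

lemma meet_subset {N U : V → Finset V} {z a : V} (ha : z ∈ N a) : meet N U z ⊆ U a :=
  fun _ hb => mem_meet.1 hb a ha

lemma meet_mono {N B U : V → Finset V} (hBU : ∀ a, B a ⊆ U a) (z : V) : meet N B z ⊆ meet N U z :=
  fun _ hb => mem_meet.2 fun a ha => hBU a (mem_meet.1 hb a ha)

/-- least value of `h` between `P ∪ (W ∩ Q)` and `Q` -/
noncomputable def k (N : V → Finset V) (P Q W : Finset V) : ℕ :=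
  sInf {m | ∃ Y, P ∪ (W ∩ Q) ⊆ Y ∧ Y ⊆ Q ∧ h N Y = m}

lemma k_le {N : V → Finset V} {P Q W Y : Finset V} (h1 : P ∪ (W ∩ Q) ⊆ Y) (h2 : Y ⊆ Q) :
    k N P Q W ≤ h N Y := Nat.sInf_le ⟨Y, h1, h2, rfl⟩

lemma k_mem {N : V → Finset V} {P Q : Finset V} (hPQ : P ⊆ Q) (W : Finset V) :
    ∃ Y, P ∪ (W ∩ Q) ⊆ Y ∧ Y ⊆ Q ∧ h N Y = k N P Q W := by
  have : (k N P Q W) ∈ {m | ∃ Y, P ∪ (W ∩ Q) ⊆ Y ∧ Y ⊆ Q ∧ h N Y = m} := by
    apply Nat.sInf_mem
    exact ⟨h N Q, Q, Finset.union_subset hPQ Finset.inter_subset_right, Finset.Subset.refl _, rfl⟩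
  exact this

lemma k_mono {N : V → Finset V} {P Q : Finset V} (hPQ : P ⊆ Q) {W W' : Finset V} (hW : W ⊆ W') :
    k N P Q W ≤ k N P Q W' := by
  obtain ⟨Y, h1, h2, h3⟩ := k_mem (N := N) hPQ W'
  rw [← h3]
  apply k_le _ h2
  exact (Finset.union_subset_union_right (Finset.inter_subset_inter_right hW)).trans h1

lemma k_univ {N : V → Finset V} {P Q : Finset V} (hPQ : P ⊆ Q) : k N P Q univ = h N Q := by
  obtain ⟨Y, h1, h2, h3⟩ := k_mem (N := N) hPQ univ
  have : Y = Q := by
    apply Finset.Subset.antisymm h2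
    intro x hx
    exact h1 (by simp [hx])
  rw [← h3, this]

lemma k_empty {N : V → Finset V} {P Q : Finset V} (hPQ : P ⊆ Q)
    (hR : ∀ Y, P ⊆ Y → Y ⊆ Q → h N P ≤ h N Y) : k N P Q ∅ = h N P := by
  apply le_antisymm
  · exact k_le (by simp) hPQ
  · obtain ⟨Y, h1, h2, h3⟩ := k_mem (N := N) hPQ ∅
    rw [← h3]
    apply hR Y _ h2
    simpa using h1

lemma k_insert_eq {N : V → Finset V} {P Q W : Finset V} {b : V} (hb : b ∉ Q ∨ b ∈ P) :
    k N P Q (insert b W) = k N P Q W := by
  have : P ∪ (insert b W ∩ Q) = P ∪ (W ∩ Q) := by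
    ext x
    simp only [mem_union, mem_inter, mem_insert]
    constructor
    · rintro (hx | ⟨rfl | hx, hq⟩)
      · exact Or.inl hx
      · rcases hb with hb | hb
        · exact absurd hq hb
        · exact Or.inl hb
      · exact Or.inr ⟨hx, hq⟩
    · rintro (hx | ⟨hx, hq⟩)
      · exact Or.inl hx
      · exact Or.inr ⟨Or.inr hx, hq⟩
  unfold k
  rw [this]

/-- step (2): the marginal of the meet is at least the marginal of each row -/
lemma k_compare {N B U : V → Finset V} (hr : ∀ v, v ∈ N v) (hBU : ∀ a, B a ⊆ U a)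
    {z a b : V} (W : Finset V) (hz : z ∈ N a) (hb : b ∈ meet N U z) :
    k N (B a) (U a) (insert b W) + k N (meet N B z) (meet N U z) W
      ≤ k N (meet N B z) (meet N U z) (insert b W) + k N (B a) (U a) W := by
  obtain ⟨Y, h1, h2, h3⟩ := k_mem (N := N) (meet_mono (N := N) hBU z) (insert b W)
  obtain ⟨Y', h1', h2', h3'⟩ := k_mem (N := N) (hBU a) W
  rw [← h3, ← h3']
  have hsub := h_submod hr Y Y'
  have e1 : k N (B a) (U a) (insert b W) ≤ h N (Y ∪ Y') := by
    apply k_le
    · intro x hx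
      rcases Finset.mem_union.1 hx with hx | hx
      · exact Finset.mem_union_right _ (h1' (Finset.mem_union_left _ hx))
      · rcases Finset.mem_inter.1 hx with ⟨hx1, hx2⟩
        rcases Finset.mem_insert.1 hx1 with rfl | hx1
        · exact Finset.mem_union_left _ (h1 (by simp [hb]))
        · exact Finset.mem_union_right _ (h1' (by simp [hx1, hx2]))
    · exact Finset.union_subset (h2.trans (meet_subset hz)) h2'
  have e2 : k N (meet N B z) (meet N U z) W ≤ h N (Y ∩ Y') := by
    apply k_le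
    · intro x hx
      rw [Finset.mem_inter]
      rcases Finset.mem_union.1 hx with hx | hx
      · exact ⟨h1 (Finset.mem_union_left _ hx),
          h1' (Finset.mem_union_left _ (meet_subset hz hx))⟩
      · rcases Finset.mem_inter.1 hx with ⟨hx1, hx2⟩
        exact ⟨h1 (by simp [hx1, hx2]), h1' (by simp [hx1, meet_subset hz hx2])⟩
    · exact Finset.inter_subset_left.trans h2
  omega

/-- (1) for the meets -/
lemma meet_R {N B U : V → Finset V} (hr : ∀ v, v ∈ N v) (hBU : ∀ a, B a ⊆ U a)
    (hR : ∀ a Y, B a ⊆ Y → Y ⊆ U a → h N (B a) ≤ h N Y) (z : V) (Y : Finset V)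
    (hY1 : meet N B z ⊆ Y) (hY2 : Y ⊆ meet N U z) : h N (meet N B z) ≤ h N Y := by
  have key : ∀ T : Finset V, (∀ a ∈ T, z ∈ N a) →
      h N (Y.filter (fun x => ∀ a ∈ T, x ∈ B a)) ≤ h N Y := by
    intro T
    induction T using Finset.induction_on with
    | empty => intro _; simp
    | insert a T haT ih =>
      intro hT
      have ih' := ih (fun a' ha' => hT a' (Finset.mem_insert_of_mem ha'))
      have ha : z ∈ N a := hT a (Finset.mem_insert_self _ _)
      set Y' := Y.filter (fun x => ∀ a ∈ T, x ∈ B a) with hY'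
      have e : Y.filter (fun x => ∀ a' ∈ insert a T, x ∈ B a') = Y' ∩ B a := by
        ext x
        simp only [hY', mem_filter, mem_inter, mem_insert, forall_eq_or_imp]
        tauto
      rw [e]
      have hs := h_submod hr Y' (B a)
      have hRa := hR a (Y' ∪ B a) Finset.subset_union_right
        (Finset.union_subset (((Finset.filter_subset _ _).trans hY2).trans (meet_subset ha)) (hBU a))
      omega
  have hk := key (univ.filter (fun a => z ∈ N a)) (by simp)
  have e : Y.filter (fun x => ∀ a ∈ univ.filter (fun a => z ∈ N a), x ∈ B a) = meet N B z := by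
    ext x
    simp only [mem_filter, mem_univ, true_and, mem_meet]
    constructor
    · rintro ⟨_, h⟩; exact h
    · intro h; exact ⟨hY1 (mem_meet.2 h), h⟩
  rwa [e] at hk

/-- one step of the telescoping, by Hall's theorem -/
lemma step {N B U : V → Finset V} (hr : ∀ v, v ∈ N v) (hBU : ∀ a, B a ⊆ U a)
    (hC : ∀ b (S : Finset V), (∀ a ∈ S, b ∈ U a ∧ b ∉ B a) →
      S.card ≤ ((Nb N S).filter (fun z => b ∈ meet N U z)).card)
    (b : V) (W : Finset V) :
    ∑ a, ((k N (B a) (U a) (insert b W) : ℤ) - k N (B a) (U a) W)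
      ≤ ∑ z, ((k N (meet N B z) (meet N U z) (insert b W) : ℤ) - k N (meet N B z) (meet N U z) W) := by
  classical
  set f : V → ℤ := fun a => (k N (B a) (U a) (insert b W) : ℤ) - k N (B a) (U a) W with hf
  set g : V → ℤ := fun z => (k N (meet N B z) (meet N U z) (insert b W) : ℤ)
    - k N (meet N B z) (meet N U z) W with hg
  have hg0 : ∀ z, 0 ≤ g z := by
    intro z
    have := k_mono (N := N) (meet_mono (N := N) hBU z) (Finset.subset_insert b W)
    simp only [hg]
    omega
  let S : Finset V := univ.filter (fun a => b ∈ U a ∧ b ∉ B a)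
  have hf0 : ∀ a, a ∉ S → f a = 0 := by
    intro a ha
    have ha' : b ∉ U a ∨ b ∈ B a := by
      by_contra hcon
      push Not at hcon
      exact ha (by simp only [S, mem_filter, mem_univ, true_and]; exact hcon)
    have := k_insert_eq (N := N) (W := W) ha'
    simp only [hf]
    rw [this]
    ring
  have hall : ∀ s : Finset {a // a ∈ S}, s.card ≤
      (s.biUnion (fun a => (N a.1).filter (fun z => b ∈ meet N U z))).card := by
    intro s
    have h1 := hC b (s.map (Function.Embedding.subtype _)) (by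
      intro a ha
      simp only [mem_map, Function.Embedding.coe_subtype, Subtype.exists, exists_and_right,
        exists_eq_right] at ha
      obtain ⟨ha, _⟩ := ha
      simpa [S] using ha)
    rw [Finset.card_map] at h1
    apply h1.trans
    apply Finset.card_le_card
    intro z hz
    simp only [mem_filter, mem_Nb, mem_map, Function.Embedding.coe_subtype] at hz
    obtain ⟨⟨a, ⟨a', ha', rfl⟩, hza⟩, hzb⟩ := hz
    simp only [mem_biUnion, mem_filter]
    exact ⟨a', ha', hza, hzb⟩
  obtain ⟨φ, hφ, hφ2⟩ := (Finset.all_card_le_biUnion_card_iff_exists_injective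
    (fun a : {a // a ∈ S} => (N a.1).filter (fun z => b ∈ meet N U z))).1 hall
  have h1 : ∑ a, f a = ∑ a ∈ S, f a := by
    symm
    apply Finset.sum_subset (Finset.subset_univ S)
    intro a _ ha
    exact hf0 a ha
  have h2 : ∑ a ∈ S, f a = ∑ a : {a // a ∈ S}, f a.1 := (Finset.sum_coe_sort S f).symm
  have h3 : ∑ a : {a // a ∈ S}, f a.1 ≤ ∑ a : {a // a ∈ S}, g (φ a) := by
    apply Finset.sum_le_sum
    intro a _
    have := hφ2 a
    simp only [mem_filter] at this
    have := k_compare hr hBU W this.1 this.2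
    simp only [hf, hg]
    omega
  have h4 : ∑ a : {a // a ∈ S}, g (φ a) = ∑ z ∈ univ.image φ, g z := by
    rw [Finset.sum_image]
    intro x _ y _ hxy
    exact hφ hxy
  have h5 : ∑ z ∈ univ.image φ, g z ≤ ∑ z, g z := by
    apply Finset.sum_le_sum_of_subset_of_nonneg (Finset.subset_univ _)
    intro z _ _
    exact hg0 z
  calc ∑ a, f a = ∑ a : {a // a ∈ S}, f a.1 := by rw [h1, h2]
    _ ≤ _ := h3
    _ = _ := h4
    _ ≤ _ := h5

/-- 787's THEOREM (the gap inequality) -/
theorem gap {N B U : V → Finset V} (hr : ∀ v, v ∈ N v) (hBU : ∀ a, B a ⊆ U a)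
    (hR : ∀ a Y, B a ⊆ Y → Y ⊆ U a → h N (B a) ≤ h N Y)
    (hC : ∀ b (S : Finset V), (∀ a ∈ S, b ∈ U a ∧ b ∉ B a) →
      S.card ≤ ((Nb N S).filter (fun z => b ∈ meet N U z)).card) :
    ∑ a, ((h N (U a) : ℤ) - h N (B a)) ≤ ∑ z, ((h N (meet N U z) : ℤ) - h N (meet N B z)) := by
  have key : ∀ W : Finset V, ∑ a, ((k N (B a) (U a) W : ℤ) - h N (B a))
      ≤ ∑ z, ((k N (meet N B z) (meet N U z) W : ℤ) - h N (meet N B z)) := by
    intro W
    induction W using Finset.induction_on with
    | empty =>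
      have e1 : ∀ a, k N (B a) (U a) ∅ = h N (B a) := fun a => k_empty (hBU a) (hR a)
      have e2 : ∀ z, k N (meet N B z) (meet N U z) ∅ = h N (meet N B z) := fun z =>
        k_empty (meet_mono (N := N) hBU z) (fun Y h1 h2 => meet_R hr hBU hR z Y h1 h2)
      simp [e1, e2]
    | insert b W _ ih =>
      have hs := step hr hBU hC b W
      simp only [Finset.sum_sub_distrib] at ih hs ⊢
      linarith
  have hk := key univ
  have e1 : ∀ a, k N (B a) (U a) univ = h N (U a) := fun a => k_univ (hBU a)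
  have e2 : ∀ z, k N (meet N B z) (meet N U z) univ = h N (meet N U z) := fun z =>
    k_univ (meet_mono (N := N) hBU z)
  simpa only [e1, e2] using hk

end Vale.Agent.P038.H700
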